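import Vale.Agent.P025.R2.H373.Gauss

/-!
# G-GAUSS (helper373, helper602, helper632): all statements are proved; import `H373.Gauss`.
(This file remains only for those who imported the former sorried specification.)
-/
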